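import Vale.Agent.Lib.P302T.Dominance

/-!
# Bins of items larger than a quarter of the capacity
-/

namespace Vale.Agent.Lib.P302T

open Finset

theorem splits_union_three {n L : ℕ} (g : Fin n → ℕ) (F S : Finset (Fin n)) (hF : F.card = 3)
    (hsum : ∑ i ∈ F, g i ≤ L) (hdisj : Disjoint F S) (hS : Splits L (S.val.map g)) :
    Splits L ((F ∪ S).val.map g) := by
  obtain ⟨x, y, z, hxy, hxz, hyz, rfl⟩ := Finset.card_eq_three.mp hF
  have hxS : x ∉ S := fun h => (Finset.disjoint_left.mp hdisj) (by simp) h
  have hyS : y ∉ S := fun h => (Finset.disjoint_left.mp hdisj) (by simp) h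
  have hzS : z ∉ S := fun h => (Finset.disjoint_left.mp hdisj) (by simp) h
  have hU : ({x, y, z} : Finset (Fin n)) ∪ S = insert x (insert y (insert z S)) := by
    ext i; simp only [Finset.mem_union, Finset.mem_insert, Finset.mem_singleton]; tauto
  rw [hU]
  have hz' : z ∉ S := hzS
  have hy' : y ∉ insert z S := by
    simp only [Finset.mem_insert, not_or]; exact ⟨hyz, hyS⟩
  have hx' : x ∉ insert y (insert z S) := by
    simp only [Finset.mem_insert, not_or]; exact ⟨hxy, hxz, hxS⟩
  rw [Finset.insert_val_of_notMem hx', Finset.insert_val_of_notMem hy',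
    Finset.insert_val_of_notMem hz', Multiset.map_cons, Multiset.map_cons, Multiset.map_cons]
  refine Splits.cons (g x) (g y) (g z) _ ?_ hS
  have hsum' : ∑ i ∈ ({x, y, z} : Finset (Fin n)), g i = g x + g y + g z := by
    rw [Finset.sum_insert (by simp [hxy, hxz]), Finset.sum_insert (by simp [hyz]),
      Finset.sum_singleton]
    ring
  omega

theorem fiber_card_le_three {n L : ℕ} (g : Fin n → ℕ) (hq : ∀ i, L < 4 * g i)
    (F : Finset (Fin n)) (hsum : ∑ i ∈ F, g i ≤ L) : F.card ≤ 3 := by
  have h1 : ∑ _i ∈ F, (L + 1) ≤ ∑ i ∈ F, 4 * g i :=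
    Finset.sum_le_sum (fun i _ => hq i)
  rw [Finset.sum_const, smul_eq_mul, ← Finset.mul_sum] at h1
  by_contra hcon
  have h4 : 4 ≤ F.card := by omega
  have : 4 * (L + 1) ≤ F.card * (L + 1) := Nat.mul_le_mul_right _ h4
  omega

/-- Counting lemma: if all items exceed a quarter of the capacity and at most `T` pairwise
disjoint triples of items fit into a bin, then any packing of `n` items into `B` bins has
`n ≤ 2 B + T`. -/
theorem bins_bound {n L : ℕ} (g : Fin n → ℕ) (hq : ∀ i, L < 4 * g i) (T : ℕ)
    (hT : ∀ S : Finset (Fin n), Splits L (S.val.map g) → S.card ≤ 3 * T)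
    (B : ℕ) (f : Fin n → Fin B)
    (hf : ∀ b : Fin B, ∑ i ∈ univ.filter (fun i => f i = b), g i ≤ L) :
    n ≤ 2 * B + T := by
  have key : ∀ U : Finset (Fin B), ∃ S : Finset (Fin n),
      S ⊆ univ.filter (fun i => f i ∈ U) ∧ Splits L (S.val.map g) ∧
      ∃ k, S.card = 3 * k ∧ (univ.filter (fun i => f i ∈ U)).card ≤ 2 * U.card + k := by
    intro U
    induction U using Finset.induction_on with
    | empty =>
      refine ⟨∅, by simp, ?_, 0, by simp, by simp⟩
      simpa using Splits.nil
    | insert b U hb ih =>
      obtain ⟨S, hSsub, hSsp, k, hk, hcard⟩ := ih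
      set F := univ.filter (fun i => f i = b) with hFdef
      set G := univ.filter (fun i => f i ∈ U) with hGdef
      have hunion : univ.filter (fun i => f i ∈ insert b U) = F ∪ G := by
        ext i
        simp only [hFdef, hGdef, Finset.mem_filter, Finset.mem_univ, true_and, Finset.mem_union,
          Finset.mem_insert]
      have hdisjFG : Disjoint F G := by
        rw [Finset.disjoint_left]
        intro i hiF hiG
        simp only [hFdef, hGdef, Finset.mem_filter, Finset.mem_univ, true_and] at hiF hiG
        exact hb (hiF ▸ hiG)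
      have hF3 : F.card ≤ 3 := fiber_card_le_three g hq F (hf b)
      have hcardU : (F ∪ G).card = F.card + G.card := Finset.card_union_of_disjoint hdisjFG
      rw [hunion, hcardU, Finset.card_insert_of_notMem hb]
      by_cases hF : F.card = 3
      · refine ⟨F ∪ S, Finset.union_subset_union le_rfl hSsub, ?_, k + 1, ?_, ?_⟩
        · exact splits_union_three g F S hF (hf b) (Finset.disjoint_of_subset_right hSsub hdisjFG)
            hSsp
        · rw [Finset.card_union_of_disjoint (Finset.disjoint_of_subset_right hSsub hdisjFG), hF,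
            hk]
          ring
        · omega
      · refine ⟨S, hSsub.trans Finset.subset_union_right, hSsp, k, hk, ?_⟩
        omega
  obtain ⟨S, _, hSsp, k, hk, hcard⟩ := key univ
  have hk' := hT S hSsp
  have huniv : (univ.filter (fun i => f i ∈ (univ : Finset (Fin B)))).card = n := by
    simp
  rw [huniv] at hcard
  simp only [Finset.card_univ, Fintype.card_fin] at hcard
  omega

end Vale.Agent.Lib.P302T
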