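import Vale.Agent.Lib.P302T.Defs
import Vale.Agent.Lib.P302T.Bins

/-!
# Certificates: lower bound for `OPT` and upper bound for `LP`
-/

namespace Vale.Agent.Lib.P302T

open Finset

/-- the instance with integer sizes `s` and bin capacity `L`, scaled to capacity `1` -/
def scaled (L : ℕ) (s : List ℕ) : List ℚ := s.map (fun x : ℕ => (x : ℚ) / (L : ℚ))

theorem scaled_isInstance (L : ℕ) (s : List ℕ) (hpos : ∀ x ∈ s, 0 < x) (hle : ∀ x ∈ s, x ≤ L) :
    IsInstance (scaled L s) := by
  intro y hy
  simp only [scaled, List.mem_map] at hy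
  obtain ⟨x, hx, rfl⟩ := hy
  have hx0 := hpos x hx
  have hxL := hle x hx
  have hL : (0 : ℚ) < L := by exact_mod_cast lt_of_lt_of_le hx0 hxL
  constructor
  · exact div_pos (by exact_mod_cast hx0) hL
  · rw [div_le_one hL]; exact_mod_cast hxL

theorem univ_map_eq {α : Type*} (l : List α) (n : ℕ) (h : n = l.length) (g : Fin n → α)
    (hg : ∀ i : Fin n, g i = l[i.val]'(h ▸ i.isLt)) :
    (univ : Finset (Fin n)).val.map g = (l : Multiset α) := by
  subst h
  have : g = l.get := funext hg
  rw [this, Fin.univ_val_map, List.ofFn_get]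

/-- lower bound for the number of bins of any packing -/
theorem packing_bound (L : ℕ) (s : List ℕ) (T : ℕ) (hL : 0 < L)
    (hsorted : s.Pairwise (fun x y => x ≤ y)) (hq : ∀ x ∈ s, L < 4 * x)
    (hsearch : search L (T + 1) (s.take (3 * (T + 1))).reverse = false)
    (B : ℕ) (f : Fin (scaled L s).length → Fin B) (hf : IsPacking (scaled L s) B f) :
    s.length ≤ 2 * B + T := by
  have hn : (scaled L s).length = s.length := by simp [scaled]
  set g : Fin (scaled L s).length → ℕ := fun i => s[i.val]'(hn ▸ i.isLt) with hg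
  have hget : ∀ i, (scaled L s).get i = (g i : ℚ) / L := by
    intro i
    show (scaled L s)[i.val] = _
    simp only [scaled, List.getElem_map, hg]
  have hLq : (0 : ℚ) < L := by exact_mod_cast hL
  have hbound := bins_bound (n := (scaled L s).length) (L := L) g
    (fun i => hq _ (List.getElem_mem _)) T ?_ B f ?_
  · omega
  · intro S hS
    have hle : S.val.map g ≤ (s : Multiset ℕ) := by
      rw [← univ_map_eq s _ hn g (fun i => rfl)]
      exact Multiset.map_le_map (Finset.val_le_iff.mpr (Finset.subset_univ S))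
    have := card_le_of_search L s hsorted T hsearch _ hle hS
    simpa using this
  · intro b
    have h1 := hf b
    simp only [hget] at h1
    rw [← Finset.sum_div, div_le_one hLq] at h1
    exact_mod_cast h1

theorem packing_exists (a : List ℚ) (ha : IsInstance a) :
    ∃ f : Fin a.length → Fin a.length, IsPacking a a.length f := by
  refine ⟨id, ?_⟩
  intro b
  have : univ.filter (fun i : Fin a.length => id i = b) = {b} := by
    ext i; simp
  rw [this, Finset.sum_singleton]
  exact (ha _ (List.get_mem a b)).2

/-- lower bound for `OPT` from a failed complete search for `T + 1` disjoint fitting triples -/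
theorem opt_ge (L : ℕ) (s : List ℕ) (T K : ℕ) (hL : 0 < L)
    (hsorted : s.Pairwise (fun x y => x ≤ y)) (hq : ∀ x ∈ s, L < 4 * x) (hle : ∀ x ∈ s, x ≤ L)
    (hsearch : search L (T + 1) (s.take (3 * (T + 1))).reverse = false)
    (hK : 2 * K + T ≤ s.length + 1) : K ≤ OPT (scaled L s) := by
  have hinst : IsInstance (scaled L s) :=
    scaled_isInstance L s (fun x hx => by have := hq x hx; omega) hle
  have hne : {B : ℕ | ∃ f : Fin (scaled L s).length → Fin B, IsPacking (scaled L s) B f}.Nonempty :=
    ⟨_, packing_exists _ hinst⟩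
  obtain ⟨f, hf⟩ := Nat.sInf_mem hne
  have := packing_bound L s T hL hsorted hq hsearch _ f hf
  unfold OPT
  omega

/-- the configuration consisting of the items of the list `t` (integer sizes, capacity `L`) -/
noncomputable def cfg (L : ℕ) (t : List ℕ) : ℚ →₀ ℕ :=
  (t.map (fun x => Finsupp.single ((x : ℚ) / L) 1)).sum

theorem cfg_nil (L : ℕ) : cfg L [] = 0 := by simp [cfg]

theorem cfg_cons (L : ℕ) (x : ℕ) (t : List ℕ) :
    cfg L (x :: t) = Finsupp.single ((x : ℚ) / L) 1 + cfg L t := by simp [cfg]

theorem cfg_apply (L : ℕ) (hL : 0 < L) (t : List ℕ) (v : ℕ) :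
    cfg L t ((v : ℚ) / L) = t.count v := by
  have hLq : (L : ℚ) ≠ 0 := by exact_mod_cast hL.ne'
  induction t with
  | nil => simp [cfg_nil]
  | cons x t ih =>
    rw [cfg_cons, Finsupp.add_apply, ih, List.count_cons]
    by_cases hxv : x = v
    · subst hxv; simp; ring
    · have : (x : ℚ) / L ≠ (v : ℚ) / L := by
        intro h
        rw [div_left_inj' hLq] at h
        exact hxv (by exact_mod_cast h)
      simp [this, hxv]

theorem cfg_support (L : ℕ) (t : List ℕ) :
    ∀ σ ∈ (cfg L t).support, ∃ x ∈ t, σ = (x : ℚ) / L := by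
  induction t with
  | nil => intro σ hσ; simp [cfg_nil] at hσ
  | cons x t ih =>
    intro σ hσ
    rw [cfg_cons] at hσ
    have := Finsupp.support_add hσ
    rw [Finset.mem_union] at this
    rcases this with h | h
    · have h' := Finsupp.support_single_subset h
      rw [Finset.mem_singleton] at h'
      exact ⟨x, List.mem_cons_self, h'⟩
    · obtain ⟨y, hy, hσy⟩ := ih σ h
      exact ⟨y, List.mem_cons_of_mem _ hy, hσy⟩

theorem cfg_sum (L : ℕ) (t : List ℕ) :
    (cfg L t).sum (fun σ m => σ * (m : ℚ)) = (t.sum : ℚ) / L := by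
  induction t with
  | nil => simp [cfg_nil]
  | cons x t ih =>
    rw [cfg_cons, Finsupp.sum_add_index' (by simp) (by intro σ m1 m2; push_cast; ring),
      Finsupp.sum_single_index (by simp), ih]
    simp only [List.sum_cons]
    push_cast
    ring

theorem cfg_isConfig (L : ℕ) (hL : 0 < L) (s t : List ℕ) (hts : ∀ x ∈ t, x ∈ s)
    (hsum : t.sum ≤ L) : IsConfig (scaled L s) (cfg L t) := by
  constructor
  · intro σ hσ
    obtain ⟨x, hx, rfl⟩ := cfg_support L t σ hσ
    simp only [scaled, List.mem_map]
    exact ⟨x, hts x hx, rfl⟩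
  · rw [cfg_sum]
    have hLq : (0 : ℚ) < L := by exact_mod_cast hL
    rw [div_le_one hLq]
    exact_mod_cast hsum

/-- the fractional solution described by a list of (configuration, integer weight) pairs,
the weights being divided by `D` -/
noncomputable def frac (L D : ℕ) (cert : List (List ℕ × ℕ)) : (ℚ →₀ ℕ) →₀ ℝ :=
  (cert.map (fun p => Finsupp.single (cfg L p.1) ((p.2 : ℝ) / D))).sum

theorem frac_nil (L D : ℕ) : frac L D [] = 0 := by simp [frac]

theorem frac_cons (L D : ℕ) (p : List ℕ × ℕ) (cert : List (List ℕ × ℕ)) :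
    frac L D (p :: cert) = Finsupp.single (cfg L p.1) ((p.2 : ℝ) / D) + frac L D cert := by
  simp [frac]

theorem frac_nonneg (L D : ℕ) (cert : List (List ℕ × ℕ)) (c : ℚ →₀ ℕ) :
    0 ≤ frac L D cert c := by
  induction cert with
  | nil => simp [frac_nil]
  | cons p cert ih =>
    rw [frac_cons, Finsupp.add_apply]
    have : (0 : ℝ) ≤ (Finsupp.single (cfg L p.1) ((p.2 : ℝ) / D)) c := by
      rw [Finsupp.single_apply]
      split_ifs
      · positivity
      · exact le_rfl
    linarith

theorem frac_support (L D : ℕ) (cert : List (List ℕ × ℕ)) :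
    ∀ c ∈ (frac L D cert).support, ∃ p ∈ cert, c = cfg L p.1 := by
  induction cert with
  | nil => intro c hc; simp [frac_nil] at hc
  | cons p cert ih =>
    intro c hc
    rw [frac_cons] at hc
    have := Finsupp.support_add hc
    rw [Finset.mem_union] at this
    rcases this with h | h
    · have h' := Finsupp.support_single_subset h
      rw [Finset.mem_singleton] at h'
      exact ⟨p, List.mem_cons_self, h'⟩
    · obtain ⟨q, hq, hcq⟩ := ih c h
      exact ⟨q, List.mem_cons_of_mem _ hq, hcq⟩

theorem frac_sum_cover (L D : ℕ) (cert : List (List ℕ × ℕ)) (σ : ℚ) :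
    (frac L D cert).sum (fun c w => (c σ : ℝ) * w)
      = (cert.map (fun p => (cfg L p.1 σ : ℝ) * ((p.2 : ℝ) / D))).sum := by
  induction cert with
  | nil => simp [frac_nil]
  | cons p cert ih =>
    rw [frac_cons, Finsupp.sum_add_index' (by simp) (by intro c w1 w2; ring),
      Finsupp.sum_single_index (by simp), ih]
    simp

theorem frac_sum_value (L D : ℕ) (cert : List (List ℕ × ℕ)) :
    (frac L D cert).sum (fun _ w => w) = (((cert.map (fun p => p.2)).sum : ℕ) : ℝ) / D := by
  induction cert with
  | nil => simp [frac_nil]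
  | cons p cert ih =>
    rw [frac_cons, Finsupp.sum_add_index' (by simp) (by intro c w1 w2; rfl),
      Finsupp.sum_single_index (by simp), ih]
    simp only [List.map_cons, List.sum_cons]
    push_cast
    ring

/-- Boolean check of a fractional solution given by configurations with integer weights
(to be divided by `D`): every configuration consists of sizes of `s` and fits into the
capacity, and every size is covered at least as often as its multiplicity. -/
def lpCheck (L D : ℕ) (s : List ℕ) (cert : List (List ℕ × ℕ)) : Bool :=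
  cert.all (fun p => decide (p.1.sum ≤ L) && p.1.all (fun x => decide (x ∈ s))) &&
  s.all (fun v => decide (s.count v * D ≤ (cert.map (fun p => p.1.count v * p.2)).sum))

theorem cover_cast (L D : ℕ) (hL : 0 < L) (cert : List (List ℕ × ℕ)) (v : ℕ) :
    (cert.map (fun p => (cfg L p.1 ((v : ℚ) / L) : ℝ) * ((p.2 : ℝ) / D))).sum
      = (((cert.map (fun p => p.1.count v * p.2)).sum : ℕ) : ℝ) / D := by
  have hfun : (fun p : List ℕ × ℕ => (cfg L p.1 ((v : ℚ) / L) : ℝ) * ((p.2 : ℝ) / D))
      = (fun p : List ℕ × ℕ => ((p.1.count v : ℕ) : ℝ) * ((p.2 : ℝ) / D)) := by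
    funext p
    rw [cfg_apply L hL]
  rw [hfun]
  induction cert with
  | nil => simp
  | cons p cert ih =>
    rw [List.map_cons, List.sum_cons, ih, List.map_cons, List.sum_cons]
    push_cast
    ring

theorem frac_isFractional (L D : ℕ) (hL : 0 < L) (hD : 0 < D) (s : List ℕ)
    (cert : List (List ℕ × ℕ)) (hcheck : lpCheck L D s cert = true) :
    IsFractional (scaled L s) (frac L D cert) := by
  simp only [lpCheck, Bool.and_eq_true, List.all_eq_true, decide_eq_true_eq] at hcheck
  obtain ⟨hcfg, hcov⟩ := hcheck
  refine ⟨?_, frac_nonneg L D cert, ?_⟩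
  · intro c hc
    obtain ⟨p, hp, rfl⟩ := frac_support L D cert c hc
    exact cfg_isConfig L hL s p.1 (hcfg p hp).2 (hcfg p hp).1
  · intro σ hσ
    simp only [scaled, List.mem_map] at hσ
    obtain ⟨v, hv, rfl⟩ := hσ
    have hLq : (L : ℚ) ≠ 0 := by exact_mod_cast hL.ne'
    have hinj : Function.Injective (fun x : ℕ => (x : ℚ) / L) := by
      intro x y hxy
      simp only at hxy
      rw [div_left_inj' hLq] at hxy
      exact_mod_cast hxy
    have hcount : (scaled L s).count ((v : ℚ) / L) = s.count v := by
      unfold scaled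
      exact List.count_map_of_injective s _ hinj v
    rw [hcount, frac_sum_cover, cover_cast L D hL]
    have hDr : (0 : ℝ) < D := by exact_mod_cast hD
    rw [le_div_iff₀ hDr]
    exact_mod_cast hcov v hv

/-- upper bound for `LP` from an explicit fractional solution -/
theorem lp_le (L D : ℕ) (hL : 0 < L) (hD : 0 < D) (s : List ℕ)
    (cert : List (List ℕ × ℕ)) (hcheck : lpCheck L D s cert = true) :
    LP (scaled L s) ≤ (((cert.map (fun p => p.2)).sum : ℕ) : ℝ) / D := by
  unfold LP
  apply csInf_le
  · refine ⟨0, ?_⟩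
    rintro v ⟨z, hz, rfl⟩
    exact Finsupp.sum_nonneg (fun c _ => hz.2.1 c)
  · exact ⟨frac L D cert, frac_isFractional L D hL hD s cert hcheck, (frac_sum_value L D cert).symm⟩

/-- Gap certificate: an instance with all sizes in `(L/4, L]`, a failed complete search for
`T + 1` disjoint fitting triples and an explicit fractional solution. -/
theorem gap_certificate (L D : ℕ) (s : List ℕ) (T K : ℕ) (cert : List (List ℕ × ℕ))
    (hL : 0 < L) (hD : 0 < D)
    (hsorted : s.Pairwise (fun x y => x ≤ y)) (hq : ∀ x ∈ s, L < 4 * x) (hle : ∀ x ∈ s, x ≤ L)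
    (hsearch : search L (T + 1) (s.take (3 * (T + 1))).reverse = false)
    (hK : 2 * K + T ≤ s.length + 1) (hcheck : lpCheck L D s cert = true) :
    IsInstance (scaled L s) ∧
      (K : ℝ) - (((cert.map (fun p => p.2)).sum : ℕ) : ℝ) / D
        ≤ (OPT (scaled L s) : ℝ) - LP (scaled L s) := by
  refine ⟨scaled_isInstance L s (fun x hx => by have := hq x hx; omega) hle, ?_⟩
  have h1 : (K : ℝ) ≤ OPT (scaled L s) := by
    exact_mod_cast opt_ge L s T K hL hsorted hq hle hsearch hK
  have h2 := lp_le L D hL hD s cert hcheck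
  linarith

end Vale.Agent.Lib.P302T
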