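import Mathlib

/-!
# Bin packing instances, `OPT` and the Gilmore-Gomory configuration LP

The conventions follow the problem file: an instance is a finite list of rational item sizes in
`(0, 1]`; a bin is a set of items of total size at most `1`; a configuration is a vector of
nonnegative integers indexed by the distinct sizes whose weighted sum is at most `1` (the entry
of a size may exceed its multiplicity in the instance).
-/

namespace Vale.Agent.Lib.P302T

/-- A bin packing instance: a finite list of rational item sizes, all in `(0, 1]`. -/
def IsInstance (a : List ℚ) : Prop := ∀ x ∈ a, 0 < x ∧ x ≤ 1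

/-- `f` assigns every item (a position of the list `a`) to one of `B` bins, and the items of
every bin have total size at most `1`. -/
def IsPacking (a : List ℚ) (B : ℕ) (f : Fin a.length → Fin B) : Prop :=
  ∀ b : Fin B, ∑ i ∈ Finset.univ.filter (fun i => f i = b), a.get i ≤ 1

/-- `OPT a`: the least number of bins into which the items of `a` can be partitioned. -/
noncomputable def OPT (a : List ℚ) : ℕ :=
  sInf {B : ℕ | ∃ f : Fin a.length → Fin B, IsPacking a B f}

/-- A configuration of the instance `a`: a vector `c` of nonnegative integers, supported on the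
sizes occurring in `a`, with `∑ σ, σ * c σ ≤ 1`. -/
def IsConfig (a : List ℚ) (c : ℚ →₀ ℕ) : Prop :=
  (∀ σ ∈ c.support, σ ∈ a) ∧ c.sum (fun σ m => σ * (m : ℚ)) ≤ 1

/-- A feasible solution of the configuration LP of `a`: nonnegative weights `z c` on
configurations `c` such that every size `σ` of `a` is covered at least as often as its
multiplicity: `∑ c, c σ * z c ≥ n σ`. -/
def IsFractional (a : List ℚ) (z : (ℚ →₀ ℕ) →₀ ℝ) : Prop :=
  (∀ c ∈ z.support, IsConfig a c) ∧ (∀ c, 0 ≤ z c) ∧
    ∀ σ ∈ a, (a.count σ : ℝ) ≤ z.sum (fun c w => (c σ : ℝ) * w)

/-- `LP a`: the optimal value of the Gilmore-Gomory configuration LP, the infimum (which is a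
minimum) of `∑ c, z c` over all feasible solutions `z`. -/
noncomputable def LP (a : List ℚ) : ℝ :=
  sInf {v : ℝ | ∃ z : (ℚ →₀ ℕ) →₀ ℝ, IsFractional a z ∧ v = z.sum (fun _ w => w)}

end Vale.Agent.Lib.P302T
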