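import Vale.Agent.Lib.P302T.Search

/-!
# Dominance: fitting triples may be moved to the smallest items
-/

namespace Vale.Agent.Lib.P302T

theorem Splits.mono_rel {L : ℕ} {M : Multiset ℕ} (h : Splits L M) :
    ∀ {A : Multiset ℕ}, Multiset.Rel (fun x y => x ≤ y) A M → Splits L A := by
  induction h with
  | nil =>
    intro A hA
    rw [Multiset.rel_zero_right] at hA
    subst hA
    exact Splits.nil
  | cons a b c S hfit _ ih =>
    intro A hA
    obtain ⟨a', A1, ha', hA1, rfl⟩ := Multiset.rel_cons_right.mp hA
    obtain ⟨b', A2, hb', hA2, rfl⟩ := Multiset.rel_cons_right.mp hA1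
    obtain ⟨c', A3, hc', hA3, rfl⟩ := Multiset.rel_cons_right.mp hA2
    exact Splits.cons a' b' c' A3 (by omega) (ih hA3)

theorem take_rel : ∀ (l : List ℕ), l.Pairwise (fun x y => x ≤ y) → ∀ (m : ℕ) (M : Multiset ℕ),
    M ≤ (l : Multiset ℕ) → Multiset.card M = m →
    Multiset.Rel (fun x y => x ≤ y) ((l.take m : List ℕ) : Multiset ℕ) M
  | [], _, m, M, hM, hcard => by
    have hM0 : M = 0 := by
      have : M ≤ 0 := hM
      exact Multiset.le_zero.mp this
    subst hM0
    simp only [Multiset.card_zero] at hcard
    subst hcard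
    simp
  | x :: l, hs, m, M, hM, hcard => by
    rw [List.pairwise_cons] at hs
    cases m with
    | zero =>
      have hM0 : M = 0 := Multiset.card_eq_zero.mp hcard
      subst hM0
      simp
    | succ m =>
      have hcoe : ((x :: l : List ℕ) : Multiset ℕ) = x ::ₘ (l : Multiset ℕ) := rfl
      rw [hcoe] at hM
      have htake : (((x :: l).take (m + 1) : List ℕ) : Multiset ℕ)
          = x ::ₘ ((l.take m : List ℕ) : Multiset ℕ) := rfl
      rw [htake]
      by_cases hx : x ∈ M
      · have hMe : M.erase x ≤ (l : Multiset ℕ) := Multiset.erase_le_iff_le_cons.mpr hM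
        have hce : Multiset.card (M.erase x) = m := by
          rw [Multiset.card_erase_of_mem hx, hcard]; rfl
        have ih := take_rel l hs.2 m (M.erase x) hMe hce
        have : M = x ::ₘ M.erase x := (Multiset.cons_erase hx).symm
        rw [this]
        exact Multiset.Rel.cons le_rfl ih
      · have hMl : M ≤ (l : Multiset ℕ) := (Multiset.le_cons_of_notMem hx).mp hM
        have hne : M ≠ 0 := by
          intro h0
          rw [h0] at hcard
          simp at hcard
        obtain ⟨y, hy⟩ := Multiset.exists_mem_of_ne_zero hne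
        have hyl : y ∈ l := Multiset.mem_coe.mp (Multiset.mem_of_le hMl hy)
        have hxy : x ≤ y := hs.1 y hyl
        have hMe : M.erase y ≤ (l : Multiset ℕ) := le_trans (Multiset.erase_le y M) hMl
        have hce : Multiset.card (M.erase y) = m := by
          rw [Multiset.card_erase_of_mem hy, hcard]; rfl
        have ih := take_rel l hs.2 m (M.erase y) hMe hce
        have : M = y ::ₘ M.erase y := (Multiset.cons_erase hy).symm
        rw [this]
        exact Multiset.Rel.cons hxy ih

theorem Splits.sub {L : ℕ} {M : Multiset ℕ} (h : Splits L M) :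
    ∀ j, 3 * j ≤ Multiset.card M → ∃ M1, M1 ≤ M ∧ Splits L M1 ∧ Multiset.card M1 = 3 * j := by
  induction h with
  | nil =>
    intro j hj
    refine ⟨0, le_rfl, Splits.nil, ?_⟩
    simp only [Multiset.card_zero] at hj ⊢
    omega
  | cons a b c S hfit hS ih =>
    intro j hj
    by_cases hjS : 3 * j ≤ Multiset.card S
    · obtain ⟨M1, hM1, hsp, hc⟩ := ih j hjS
      refine ⟨M1, le_trans hM1 ?_, hsp, hc⟩
      exact le_trans (Multiset.le_cons_self _ c)
        (le_trans (Multiset.le_cons_self _ b) (Multiset.le_cons_self _ a))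
    · refine ⟨a ::ₘ b ::ₘ c ::ₘ S, le_rfl, Splits.cons a b c S hfit hS, ?_⟩
      obtain ⟨k, hk, _⟩ := hS.card_sum
      simp only [Multiset.card_cons] at hj ⊢
      omega

/-- If the complete search fails on the `3 (T+1)` smallest items, then no sub-multiset of the
items that splits into fitting triples has more than `3 T` elements. -/
theorem card_le_of_search (L : ℕ) (l : List ℕ) (hs : l.Pairwise (fun x y => x ≤ y)) (T : ℕ)
    (hsearch : search L (T + 1) (l.take (3 * (T + 1))).reverse = false) :
    ∀ M : Multiset ℕ, M ≤ (l : Multiset ℕ) → Splits L M → Multiset.card M ≤ 3 * T := by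
  intro M hM hsp
  by_contra hcon
  obtain ⟨k, hk, _⟩ := hsp.card_sum
  have hj : 3 * (T + 1) ≤ Multiset.card M := by omega
  obtain ⟨M1, hM1, hsp1, hc1⟩ := hsp.sub (T + 1) hj
  have hrel := take_rel l hs (3 * (T + 1)) M1 (le_trans hM1 hM) hc1
  have hsp2 := hsp1.mono_rel hrel
  have hlen : (l.take (3 * (T + 1))).reverse.length = 3 * (T + 1) := by
    have h1 : Multiset.card M1 ≤ Multiset.card (l : Multiset ℕ) :=
      Multiset.card_le_card (le_trans hM1 hM)
    simp only [Multiset.coe_card] at h1
    simp only [List.length_reverse, List.length_take]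
    omega
  have hsp3 : Splits L (((l.take (3 * (T + 1))).reverse : List ℕ) : Multiset ℕ) := by
    rw [← Multiset.coe_reverse] at hsp2
    exact hsp2
  have := search_complete L (T + 1) _ hsp3 hlen
  rw [hsearch] at this
  exact Bool.false_ne_true this

end Vale.Agent.Lib.P302T
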