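import Vale.Agent.Lib.P302T.Search3
import Vale.Agent.Lib.P302T.Cert

/-!
# Instances with base items near a third of the capacity and fillers of a sixth

Capacity `6 * K`; a filler has size exactly `K`; every other (base) item `x` satisfies
`5 * K < 3 * x`.  Count a base item as two units and a filler as one unit.  A bin holds at
most six units, and at most five units when its base items are heavy (their sum exceeds
`2 * K` times their number).
-/

namespace Vale.Agent.Lib.P302T

open Finset

theorem union_val_map {n : ℕ} (g : Fin n → ℕ) (F S : Finset (Fin n)) (hdisj : Disjoint F S) :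
    (F ∪ S).val.map g = F.val.map g + S.val.map g := by
  have : (F ∪ S).val = F.val + S.val := by
    rw [← Finset.disjUnion_eq_union F S hdisj]; rfl
  rw [this, Multiset.map_add]

/-- unit count of one bin -/
theorem bin_units {n K : ℕ} (hK : 0 < K) (g : Fin n → ℕ) (Fb : Finset (Fin n))
    (hq : ∀ i ∈ Fb, 5 * K < 3 * g i) (c : ℕ) (hsum : ∑ i ∈ Fb, g i + c * K ≤ 6 * K) :
    Fb.card ≤ 3 ∧ 2 * Fb.card + c ≤ 6 ∧
      (Fb.card * (2 * K) < ∑ i ∈ Fb, g i → Fb.card ≤ 2 ∧ 2 * Fb.card + c + 1 ≤ 6) := by
  have h1 : ∑ _i ∈ Fb, (5 * K + 1) ≤ ∑ i ∈ Fb, 3 * g i :=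
    Finset.sum_le_sum (fun i hi => hq i hi)
  rw [Finset.sum_const, smul_eq_mul, ← Finset.mul_sum] at h1
  have hb3 : Fb.card ≤ 3 := by
    by_contra hcon
    have h4 : 4 ≤ Fb.card := by omega
    have : 4 * (5 * K + 1) ≤ Fb.card * (5 * K + 1) := Nat.mul_le_mul_right _ h4
    omega
  have hunits : 2 * Fb.card + c ≤ 6 := by
    by_contra hcon
    have hc : 7 - 2 * Fb.card ≤ c := by omega
    have hcK : (7 - 2 * Fb.card) * K ≤ c * K := Nat.mul_le_mul_right _ hc
    have hcases : Fb.card = 0 ∨ Fb.card = 1 ∨ Fb.card = 2 ∨ Fb.card = 3 := by omega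
    rcases hcases with h | h | h | h <;> rw [h] at h1 hcK <;> omega
  refine ⟨hb3, hunits, ?_⟩
  intro hpos
  have hunits' : 2 * Fb.card + c + 1 ≤ 6 := by
    by_contra hcon
    have hc : 6 - 2 * Fb.card ≤ c := by omega
    have hcK : (6 - 2 * Fb.card) * K ≤ c * K := Nat.mul_le_mul_right _ hc
    have hcases : Fb.card = 0 ∨ Fb.card = 1 ∨ Fb.card = 2 ∨ Fb.card = 3 := by omega
    rcases hcases with h | h | h | h <;> rw [h] at hpos hcK <;> omega
  exact ⟨by omega, hunits'⟩

/-- Counting lemma for packings of base items and fillers. -/
theorem bins_bound_fill {n K : ℕ} (hK : 0 < K) (g : Fin n → ℕ)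
    (hq : ∀ i, g i ≠ K → 5 * K < 3 * g i) (j W : ℕ)
    (hT : ∀ S : Finset (Fin n), S ⊆ univ.filter (fun i => g i ≠ K) →
      Splits3 (2 * K) (S.val.map g) → S.card < j)
    (hj : j + 2 * W ≤ (univ.filter (fun i => g i ≠ K)).card + 2)
    (B : ℕ) (f : Fin n → Fin B)
    (hf : ∀ b : Fin B, ∑ i ∈ univ.filter (fun i => f i = b), g i ≤ 6 * K) :
    2 * (univ.filter (fun i => g i ≠ K)).card + (univ.filter (fun i => g i = K)).card + W
      ≤ 6 * B := by
  have key : ∀ U : Finset (Fin B), ∃ S : Finset (Fin n),
      S ⊆ univ.filter (fun i => f i ∈ U ∧ g i ≠ K) ∧ Splits3 (2 * K) (S.val.map g) ∧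
      ∃ p, (univ.filter (fun i => f i ∈ U ∧ g i ≠ K)).card ≤ S.card + 2 * p ∧
        2 * (univ.filter (fun i => f i ∈ U ∧ g i ≠ K)).card
          + (univ.filter (fun i => f i ∈ U ∧ g i = K)).card + p ≤ 6 * U.card := by
    intro U
    induction U using Finset.induction_on with
    | empty =>
      refine ⟨∅, by simp, ?_, 0, by simp, by simp⟩
      simpa using Splits3.nil
    | insert b U hb ih =>
      obtain ⟨S, hSsub, hSsp, p, hp1, hp2⟩ := ih
      set Fb := univ.filter (fun i => f i = b ∧ g i ≠ K) with hFb
      set Ff := univ.filter (fun i => f i = b ∧ g i = K) with hFf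
      set Gb := univ.filter (fun i => f i ∈ U ∧ g i ≠ K) with hGb
      set Gf := univ.filter (fun i => f i ∈ U ∧ g i = K) with hGf
      have hunionb : univ.filter (fun i => f i ∈ insert b U ∧ g i ≠ K) = Fb ∪ Gb := by
        ext i
        simp only [hFb, hGb, Finset.mem_filter, Finset.mem_univ, true_and, Finset.mem_union,
          Finset.mem_insert]
        tauto
      have hunionf : univ.filter (fun i => f i ∈ insert b U ∧ g i = K) = Ff ∪ Gf := by
        ext i
        simp only [hFf, hGf, Finset.mem_filter, Finset.mem_univ, true_and, Finset.mem_union,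
          Finset.mem_insert]
        tauto
      have hdisjb : Disjoint Fb Gb := by
        rw [Finset.disjoint_left]
        intro i hiF hiG
        simp only [hFb, hGb, Finset.mem_filter, Finset.mem_univ, true_and] at hiF hiG
        exact hb (hiF.1 ▸ hiG.1)
      have hdisjf : Disjoint Ff Gf := by
        rw [Finset.disjoint_left]
        intro i hiF hiG
        simp only [hFf, hGf, Finset.mem_filter, Finset.mem_univ, true_and] at hiF hiG
        exact hb (hiF.1 ▸ hiG.1)
      have hfiber : univ.filter (fun i => f i = b) = Fb ∪ Ff := by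
        ext i
        simp only [hFb, hFf, Finset.mem_filter, Finset.mem_univ, true_and, Finset.mem_union]
        tauto
      have hdisjbf : Disjoint Fb Ff := by
        rw [Finset.disjoint_left]
        intro i hiF hiG
        simp only [hFb, hFf, Finset.mem_filter, Finset.mem_univ, true_and] at hiF hiG
        exact hiF.2 hiG.2
      have hsumf : ∑ i ∈ Ff, g i = Ff.card * K := by
        rw [Finset.sum_eq_card_nsmul (b := K)]
        · simp
        · intro i hi
          simp only [hFf, Finset.mem_filter, Finset.mem_univ, true_and] at hi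
          exact hi.2
      have hbin : ∑ i ∈ Fb, g i + Ff.card * K ≤ 6 * K := by
        have := hf b
        rw [hfiber, Finset.sum_union hdisjbf, hsumf] at this
        exact this
      obtain ⟨hb3, hunits, hheavy⟩ := bin_units hK g Fb
        (fun i hi => hq i (by
          simp only [hFb, Finset.mem_filter, Finset.mem_univ, true_and] at hi
          exact hi.2)) Ff.card hbin
      rw [hunionb, hunionf, Finset.card_union_of_disjoint hdisjb,
        Finset.card_union_of_disjoint hdisjf, Finset.card_insert_of_notMem hb]
      by_cases hpos : Fb.card * (2 * K) < ∑ i ∈ Fb, g i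
      · obtain ⟨hb2, hunits'⟩ := hheavy hpos
        refine ⟨S, hSsub.trans Finset.subset_union_right, hSsp, p + 1, ?_, ?_⟩
        · omega
        · omega
      · have hdisjS : Disjoint Fb S := Finset.disjoint_of_subset_right hSsub hdisjb
        refine ⟨Fb ∪ S, Finset.union_subset_union le_rfl hSsub, ?_, p, ?_, ?_⟩
        · rw [union_val_map g Fb S hdisjS]
          refine Splits3.add _ _ ?_ ?_ hSsp
          · simpa using hb3
          · simp only [Multiset.card_map, Finset.card_val]
            have : (Fb.val.map g).sum = ∑ i ∈ Fb, g i := rfl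
            rw [this]
            omega
        · rw [Finset.card_union_of_disjoint hdisjS]
          omega
        · omega
  obtain ⟨S, hSsub, hSsp, p, hp1, hp2⟩ := key univ
  have hb : univ.filter (fun i => f i ∈ (univ : Finset (Fin B)) ∧ g i ≠ K)
      = univ.filter (fun i => g i ≠ K) := by
    ext i; simp
  have hfl : univ.filter (fun i => f i ∈ (univ : Finset (Fin B)) ∧ g i = K)
      = univ.filter (fun i => g i = K) := by
    ext i; simp
  rw [hb] at hSsub hp1 hp2
  rw [hfl] at hp2
  have hlt := hT S hSsub hSsp
  simp only [Finset.card_univ, Fintype.card_fin] at hp2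
  omega

end Vale.Agent.Lib.P302T

namespace Vale.Agent.Lib.P302T

open Finset

theorem filter_ne_append_replicate (K : ℕ) (base : List ℕ) (m : ℕ) (hne : ∀ x ∈ base, x ≠ K) :
    (base ++ List.replicate m K).filter (fun x => decide (x ≠ K)) = base := by
  rw [List.filter_append]
  have h1 : base.filter (fun x => decide (x ≠ K)) = base := by
    rw [List.filter_eq_self]
    intro x hx
    simpa using hne x hx
  have h2 : (List.replicate m K).filter (fun x => decide (x ≠ K)) = [] := by
    rw [List.filter_eq_nil_iff]
    intro x hx
    have := List.eq_of_mem_replicate hx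
    simp [this]
  rw [h1, h2, List.append_nil]

theorem packing_bound_fill_aux (K : ℕ) (base s : List ℕ) (m j W : ℕ) (hK : 0 < K)
    (hfilter : s.filter (fun x => decide (x ≠ K)) = base)
    (hslen : s.length = base.length + m)
    (hsorted : base.Pairwise (fun x y => x ≤ y)) (hq : ∀ x ∈ s, x ≠ K → 5 * K < 3 * x)
    (hsearch : search3 (2 * K) j (base.take j).reverse = false)
    (hj : j + 2 * W ≤ base.length + 2)
    (B : ℕ) (f : Fin (scaled (6 * K) s).length → Fin B)
    (hf : IsPacking (scaled (6 * K) s) B f) :
    2 * base.length + m + W ≤ 6 * B := by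
  have hn : (scaled (6 * K) s).length = s.length := by simp [scaled]
  set g : Fin (scaled (6 * K) s).length → ℕ := fun i => s[i.val]'(hn ▸ i.isLt) with hg
  have hget : ∀ i, (scaled (6 * K) s).get i = (g i : ℚ) / ((6 * K : ℕ) : ℚ) := by
    intro i
    show (scaled (6 * K) s)[i.val] = _
    simp only [scaled, List.getElem_map, hg]
  have hLq : (0 : ℚ) < ((6 * K : ℕ) : ℚ) := by exact_mod_cast (by omega : 0 < 6 * K)
  have hgq : ∀ i, g i ≠ K → 5 * K < 3 * g i := by
    intro i hi
    exact hq _ (List.getElem_mem _) hi
  have hbase : (univ.filter (fun i => g i ≠ K)).val.map g = (base : Multiset ℕ) := by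
    rw [Finset.filter_val]
    have h1 : Multiset.map g (Multiset.filter (fun i => g i ≠ K) univ.val)
        = Multiset.filter (fun x => x ≠ K) (Multiset.map g univ.val) := by
      rw [Multiset.filter_map]
      rfl
    rw [h1, univ_map_eq s _ hn g (fun i => rfl), Multiset.filter_coe, hfilter]
  have hcb : (univ.filter (fun i => g i ≠ K)).card = base.length := by
    have := congrArg Multiset.card hbase
    rw [Multiset.card_map, Multiset.coe_card] at this
    exact this
  have hcf : (univ.filter (fun i => g i = K)).card = m := by
    have h1 := Finset.card_filter_add_card_filter_not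
      (s := (univ : Finset (Fin (scaled (6 * K) s).length))) (fun i => g i = K)
    have h2 : (univ.filter (fun i => ¬ g i = K)).card = base.length := hcb
    rw [h2, Finset.card_univ, Fintype.card_fin] at h1
    omega
  have hbound := bins_bound_fill (n := (scaled (6 * K) s).length) hK g hgq j W ?_ ?_ B f ?_
  · rw [hcb, hcf] at hbound
    exact hbound
  · intro S hS hsp
    have hle : S.val.map g ≤ (base : Multiset ℕ) := by
      rw [← hbase]
      exact Multiset.map_le_map (Finset.val_le_iff.mpr hS)
    have := card_lt_of_search3 (2 * K) base hsorted j hsearch _ hle hsp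
    rw [Multiset.card_map] at this
    exact this
  · rw [hcb]; exact hj
  · intro b
    have h1 := hf b
    simp only [hget] at h1
    rw [← Finset.sum_div, div_le_one hLq] at h1
    exact_mod_cast h1

/-- lower bound for the number of bins of any packing of base items and fillers -/
theorem packing_bound_fill (K : ℕ) (base : List ℕ) (m j W : ℕ) (hK : 0 < K)
    (hsorted : base.Pairwise (fun x y => x ≤ y)) (hq : ∀ x ∈ base, 5 * K < 3 * x)
    (hsearch : search3 (2 * K) j (base.take j).reverse = false)
    (hj : j + 2 * W ≤ base.length + 2)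
    (B : ℕ) (f : Fin (scaled (6 * K) (base ++ List.replicate m K)).length → Fin B)
    (hf : IsPacking (scaled (6 * K) (base ++ List.replicate m K)) B f) :
    2 * base.length + m + W ≤ 6 * B := by
  have hne : ∀ x ∈ base, x ≠ K := by
    intro x hx
    have := hq x hx
    omega
  refine packing_bound_fill_aux K base (base ++ List.replicate m K) m j W hK
    (filter_ne_append_replicate K base m hne) (by simp) hsorted ?_ hsearch hj B f hf
  intro x hx hxK
  rw [List.mem_append] at hx
  rcases hx with h | h
  · exact hq _ h
  · exact (hxK (List.eq_of_mem_replicate h)).elim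

/-- lower bound for `OPT` of an instance consisting of base items and fillers -/
theorem opt_ge_fill (K : ℕ) (base : List ℕ) (m j W Kopt : ℕ) (hK : 0 < K)
    (hsorted : base.Pairwise (fun x y => x ≤ y)) (hq : ∀ x ∈ base, 5 * K < 3 * x)
    (hle : ∀ x ∈ base, x ≤ 6 * K)
    (hsearch : search3 (2 * K) j (base.take j).reverse = false)
    (hj : j + 2 * W ≤ base.length + 2)
    (hKopt : 6 * Kopt ≤ 2 * base.length + m + W + 5) :
    Kopt ≤ OPT (scaled (6 * K) (base ++ List.replicate m K)) := by
  have hinst : IsInstance (scaled (6 * K) (base ++ List.replicate m K)) := by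
    apply scaled_isInstance
    · intro x hx
      rw [List.mem_append] at hx
      rcases hx with h | h
      · have := hq x h; omega
      · rw [List.eq_of_mem_replicate h]; exact hK
    · intro x hx
      rw [List.mem_append] at hx
      rcases hx with h | h
      · exact hle x h
      · rw [List.eq_of_mem_replicate h]; omega
  have hne : {B : ℕ | ∃ f : Fin (scaled (6 * K) (base ++ List.replicate m K)).length → Fin B,
      IsPacking (scaled (6 * K) (base ++ List.replicate m K)) B f}.Nonempty :=
    ⟨_, packing_exists _ hinst⟩
  obtain ⟨f, hf⟩ := Nat.sInf_mem hne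
  have := packing_bound_fill K base m j W hK hsorted hq hsearch hj _ f hf
  unfold OPT
  omega

/-- Gap certificate for instances with fillers: base items `x` with `5 K < 3 x`, `m` fillers
of size `K`, capacity `6 K`; a failed complete search for a splitting of the `j` smallest base
items into light groups, and an explicit fractional solution. -/
theorem gap_certificate_fill (K D : ℕ) (base : List ℕ) (m j W Kopt : ℕ)
    (cert : List (List ℕ × ℕ)) (hK : 0 < K) (hD : 0 < D)
    (hsorted : base.Pairwise (fun x y => x ≤ y)) (hq : ∀ x ∈ base, 5 * K < 3 * x)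
    (hle : ∀ x ∈ base, x ≤ 6 * K)
    (hsearch : search3 (2 * K) j (base.take j).reverse = false)
    (hj : j + 2 * W ≤ base.length + 2)
    (hKopt : 6 * Kopt ≤ 2 * base.length + m + W + 5)
    (hcheck : lpCheck (6 * K) D (base ++ List.replicate m K) cert = true) :
    IsInstance (scaled (6 * K) (base ++ List.replicate m K)) ∧
      (Kopt : ℝ) - (((cert.map (fun p => p.2)).sum : ℕ) : ℝ) / D
        ≤ (OPT (scaled (6 * K) (base ++ List.replicate m K)) : ℝ)
          - LP (scaled (6 * K) (base ++ List.replicate m K)) := by
  have hinst : IsInstance (scaled (6 * K) (base ++ List.replicate m K)) := by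
    apply scaled_isInstance
    · intro x hx
      rw [List.mem_append] at hx
      rcases hx with h | h
      · have := hq x h; omega
      · rw [List.eq_of_mem_replicate h]; exact hK
    · intro x hx
      rw [List.mem_append] at hx
      rcases hx with h | h
      · exact hle x h
      · rw [List.eq_of_mem_replicate h]; omega
  refine ⟨hinst, ?_⟩
  have h1 : (Kopt : ℝ) ≤ OPT (scaled (6 * K) (base ++ List.replicate m K)) := by
    exact_mod_cast opt_ge_fill K base m j W Kopt hK hsorted hq hle hsearch hj hKopt
  have h2 := lp_le (6 * K) D (by omega) hD (base ++ List.replicate m K) cert hcheck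
  linarith

end Vale.Agent.Lib.P302T
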