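import Vale.Agent.Lib.P302T.Cert

/-!
# Checking a table of unsplittable sub-multisets

A table of keys (bit masks relative to a fixed base list) is closed under the exchange
search step: every state of the table is either too heavy or all of its successor states
are again in the table.  Then no state of the table splits into fitting triples.
-/

namespace Vale.Agent.Lib.P302T

theorem Splits.exists_child {L x : ℕ} {rest : List ℕ}
    (hsp : Splits L ((x :: rest : List ℕ) : Multiset ℕ)) :
    ∃ b a', b ∈ rest ∧ x + b + a' ≤ L ∧ b ≤ a' ∧
      pickMax (L - x - b) (rest.erase b) = some a' ∧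
      Splits L (((rest.erase b).erase a' : List ℕ) : Multiset ℕ) := by
  obtain ⟨b, a, S', hrest, hfit, hsp', hba⟩ : ∃ b a S', (rest : Multiset ℕ) = b ::ₘ a ::ₘ S' ∧
      x + b + a ≤ L ∧ Splits L S' ∧ b ≤ a := by
    obtain ⟨b, a, S', hS', hfit, hsp'⟩ := hsp.exists_triple (x := x) (by simp)
    have hrest : (rest : Multiset ℕ) = b ::ₘ a ::ₘ S' := by
      have h1 : ((x :: rest : List ℕ) : Multiset ℕ) = x ::ₘ (rest : Multiset ℕ) := rfl
      rw [h1] at hS'
      exact (Multiset.cons_inj_right x).mp hS'
    rcases le_total b a with h | h
    · exact ⟨b, a, S', hrest, hfit, hsp', h⟩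
    · exact ⟨a, b, S', by rw [hrest, Multiset.cons_swap], by omega, hsp', h⟩
  have hb : b ∈ rest := by
    have : b ∈ (rest : Multiset ℕ) := by rw [hrest]; simp
    exact Multiset.mem_coe.mp this
  have herase : ((rest.erase b : List ℕ) : Multiset ℕ) = a ::ₘ S' := by
    rw [← Multiset.coe_erase, hrest, Multiset.erase_cons_head]
  have ha : a ∈ rest.erase b := by
    have : a ∈ ((rest.erase b : List ℕ) : Multiset ℕ) := by rw [herase]; simp
    exact Multiset.mem_coe.mp this
  cases hpick : pickMax (L - x - b) (rest.erase b) with
  | none =>
    have := pickMax_none hpick a ha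
    omega
  | some a' =>
    obtain ⟨ha'mem, ha'b, ha'max⟩ := pickMax_some hpick
    have haa' : a ≤ a' := ha'max a ha (by omega)
    refine ⟨b, a', hb, by omega, le_trans hba haa', hpick, ?_⟩
    rw [← Multiset.coe_erase, herase]
    by_cases heq : a' = a
    · subst heq
      rw [Multiset.erase_cons_head]
      exact hsp'
    · have ha'S : a' ∈ S' := by
        have : a' ∈ ((rest.erase b : List ℕ) : Multiset ℕ) := Multiset.mem_coe.mpr ha'mem
        rw [herase, Multiset.mem_cons] at this
        rcases this with h | h
        · exact (heq h).elim
        · exact h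
      rw [Multiset.erase_cons_tail _ (Ne.symm heq)]
      exact hsp'.replace ha'S haa'

/-- static search tree of keys -/
inductive KTree where
  | leaf : KTree
  | node (l : KTree) (k : ℕ) (r : KTree) : KTree

/-- is the key stored in the tree (the tree is assumed to be ordered) -/
def KTree.lookup (k : ℕ) : KTree → Bool
  | .leaf => false
  | .node l k' r =>
    bif Nat.blt k k' then l.lookup k else bif Nat.blt k' k then r.lookup k else true

/-- does `f` hold for all keys of the tree -/
def KTree.all (f : ℕ → Bool) : KTree → Bool
  | .leaf => true
  | .node l k r => f k && l.all f && r.all f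

theorem KTree.all_of_lookup {f : ℕ → Bool} {k : ℕ} :
    ∀ {t : KTree}, t.all f = true → t.lookup k = true → f k = true
  | .leaf, _, h => by simp [KTree.lookup] at h
  | .node l k' r, hall, h => by
    unfold KTree.all at hall
    simp only [Bool.and_eq_true] at hall
    obtain ⟨⟨hk', hl⟩, hr⟩ := hall
    unfold KTree.lookup at h
    by_cases h1 : Nat.blt k k' = true
    · rw [h1, cond_true] at h
      exact KTree.all_of_lookup hl h
    · rw [Bool.not_eq_true] at h1
      rw [h1, cond_false] at h
      by_cases h2 : Nat.blt k' k = true
      · rw [h2, cond_true] at h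
        exact KTree.all_of_lookup hr h
      · rw [Bool.not_eq_true] at h2
        have e1 : ¬ k < k' := by
          intro hlt
          have : Nat.blt k k' = true := by simpa [Nat.blt_eq] using hlt
          rw [h1] at this
          exact Bool.false_ne_true this
        have e2 : ¬ k' < k := by
          intro hlt
          have : Nat.blt k' k = true := by simpa [Nat.blt_eq] using hlt
          rw [h2] at this
          exact Bool.false_ne_true this
        have : k = k' := by omega
        rw [this]
        exact hk'

/-- the sublist of `base` selected by the bits of `k` -/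
def decode : List ℕ → ℕ → List ℕ
  | [], _ => []
  | v :: vs, k => bif Nat.beq (k % 2) 1 then v :: decode vs (k / 2) else decode vs (k / 2)

theorem decode_zero : ∀ (base : List ℕ), decode base 0 = []
  | [] => rfl
  | v :: vs => by
    unfold decode
    rw [show Nat.beq (0 % 2) 1 = false from rfl, cond_false, show 0 / 2 = 0 from rfl,
      decode_zero vs]

theorem decode_sublist : ∀ (base : List ℕ) (k : ℕ), (decode base k).Sublist base
  | [], _ => by simp [decode]
  | v :: vs, k => by
    unfold decode
    cases Nat.beq (k % 2) 1 with
    | true => exact (decode_sublist vs (k / 2)).cons_cons v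
    | false => exact (decode_sublist vs (k / 2)).cons v

/-- the bit mask of a sublist of `base` (greedy matching) -/
def encode : List ℕ → List ℕ → ℕ
  | [], _ => 0
  | _ :: _, [] => 0
  | v :: vs, c :: cs => bif Nat.beq v c then 1 + 2 * encode vs cs else 2 * encode vs (c :: cs)

theorem decode_encode : ∀ (base c : List ℕ), c.Sublist base → decode base (encode base c) = c
  | [], c, h => by
    have : c = [] := List.sublist_nil.mp h
    subst this
    rfl
  | v :: vs, [], _ => by
    simp [encode, decode_zero]
  | v :: vs, c :: cs, h => by
    unfold encode
    by_cases hvc : v = c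
    · subst hvc
      have hb : Nat.beq v v = true := by simp
      rw [hb, cond_true]
      have hsub : cs.Sublist vs := List.cons_sublist_cons.mp h
      have ih := decode_encode vs cs hsub
      unfold decode
      have h1 : Nat.beq ((1 + 2 * encode vs cs) % 2) 1 = true := by
        have : (1 + 2 * encode vs cs) % 2 = 1 := by omega
        rw [this]; rfl
      have h2 : (1 + 2 * encode vs cs) / 2 = encode vs cs := by omega
      rw [h1, cond_true, h2, ih]
    · have hb : Nat.beq v c = false := by
        cases hbb : Nat.beq v c with
        | false => rfl
        | true => exact (hvc (Nat.eq_of_beq_eq_true hbb)).elim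
      rw [hb, cond_false]
      have hsub : (c :: cs).Sublist vs := by
        cases h with
        | cons _ h' => exact h'
        | cons_cons _ h' => exact (hvc rfl).elim
      have ih := decode_encode vs (c :: cs) hsub
      unfold decode
      have h1 : Nat.beq ((2 * encode vs (c :: cs)) % 2) 1 = false := by
        have : (2 * encode vs (c :: cs)) % 2 = 0 := by omega
        rw [this]; rfl
      have h2 : (2 * encode vs (c :: cs)) / 2 = encode vs (c :: cs) := by omega
      rw [h1, cond_false, h2, ih]

/-- removal of adjacent repetitions -/
def adj : List ℕ → List ℕ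
  | [] => []
  | [a] => [a]
  | a :: b :: l => bif Nat.beq a b then adj (b :: l) else a :: adj (b :: l)

theorem mem_adj : ∀ {l : List ℕ} {y : ℕ}, y ∈ l → y ∈ adj l
  | [], _, h => by simp at h
  | [a], _, h => by simpa [adj] using h
  | a :: b :: l, y, h => by
    unfold adj
    cases hab : Nat.beq a b with
    | true =>
      have hab' : a = b := Nat.eq_of_beq_eq_true hab
      rw [cond_true]
      apply mem_adj
      rcases List.mem_cons.mp h with h1 | h1
      · rw [h1, hab']; exact List.mem_cons_self
      · exact h1
    | false =>
      rw [cond_false]
      rcases List.mem_cons.mp h with h1 | h1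
      · rw [h1]; exact List.mem_cons_self
      · exact List.mem_cons_of_mem _ (mem_adj h1)

/-- removal of the first occurrence -/
def eraseF (b : ℕ) : List ℕ → List ℕ
  | [] => []
  | y :: l => bif Nat.beq y b then l else y :: eraseF b l

theorem eraseF_eq (b : ℕ) : ∀ (l : List ℕ), eraseF b l = l.erase b
  | [] => rfl
  | y :: l => by
    unfold eraseF
    rw [List.erase_cons]
    cases hyb : Nat.beq y b with
    | true =>
      have : y = b := Nat.eq_of_beq_eq_true hyb
      subst this
      simp
    | false =>
      have hne : ¬ y = b := by
        intro h
        subst h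
        simp at hyb
      have : (y == b) = false := by simpa using hne
      rw [cond_false, this, eraseF_eq b l]
      simp

/-- the check for one state of the table -/
def checkState (L : ℕ) (base : List ℕ) (tree : KTree) (k : ℕ) : Bool :=
  match decode base k with
  | [] => false
  | x :: rest =>
    bif Nat.blt ((x :: rest).length * L) (3 * (x :: rest).sum) then true
    else (adj rest).all (fun b =>
      bif Nat.ble (x + 2 * b) L then
        match pickMax (L - x - b) (eraseF b rest) with
        | none => true
        | some a =>
          bif Nat.ble b a then tree.lookup (encode base (eraseF a (eraseF b rest))) else true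
      else true)

theorem table_sound (L : ℕ) (base : List ℕ) (tree : KTree)
    (hall : tree.all (checkState L base tree) = true) :
    ∀ (n : ℕ) (k : ℕ), tree.lookup k = true → (decode base k).length ≤ n →
      ¬ Splits L ((decode base k : List ℕ) : Multiset ℕ) := by
  intro n
  induction n with
  | zero =>
    intro k hk hlen hsp
    have hc : checkState L base tree k = true := KTree.all_of_lookup hall hk
    have hnil : decode base k = [] := List.length_eq_zero_iff.mp (by omega)
    unfold checkState at hc
    rw [hnil] at hc
    exact Bool.false_ne_true hc
  | succ n ih =>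
    intro k hk hlen hsp
    have hc : checkState L base tree k = true := KTree.all_of_lookup hall hk
    have hsub := decode_sublist base k
    unfold checkState at hc
    cases hd : decode base k with
    | nil =>
      rw [hd] at hc
      exact Bool.false_ne_true hc
    | cons x rest =>
      rw [hd] at hc hsp hlen hsub
      simp only at hc
      cases hheavy : Nat.blt ((x :: rest).length * L) (3 * (x :: rest).sum) with
      | true =>
        obtain ⟨k', hk', hsum⟩ := hsp.card_sum
        have h1 : (x :: rest).length * L < 3 * (x :: rest).sum := by
          simpa [Nat.blt_eq] using hheavy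
        have h2 : ((x :: rest : List ℕ) : Multiset ℕ).sum = (x :: rest).sum := Multiset.sum_coe _
        simp only [Multiset.coe_card] at hk'
        rw [h2] at hsum
        rw [hk'] at h1
        nlinarith
      | false =>
        rw [hheavy, cond_false] at hc
        obtain ⟨b, a', hb, hfit, hba, hpick, hsp'⟩ := hsp.exists_child
        have hcb := List.all_eq_true.mp hc b (mem_adj hb)
        have hble : Nat.ble (x + 2 * b) L = true := by
          rw [Nat.ble_eq]; omega
        rw [hble, cond_true, eraseF_eq, hpick] at hcb
        simp only at hcb
        have hble2 : Nat.ble b a' = true := by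
          rw [Nat.ble_eq]; exact hba
        rw [hble2, cond_true, eraseF_eq] at hcb
        have hsubc : ((rest.erase b).erase a').Sublist base :=
          ((List.erase_sublist).trans ((List.erase_sublist).trans (List.sublist_cons_self x rest))).trans hsub
        have hdec := decode_encode base _ hsubc
        have hlen' : (decode base (encode base ((rest.erase b).erase a'))).length ≤ n := by
          rw [hdec]
          have h1 : ((rest.erase b).erase a').length ≤ (rest.erase b).length :=
            (List.erase_sublist).length_le
          have h2 : (rest.erase b).length ≤ rest.length := (List.erase_sublist).length_le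
          simp only [List.length_cons] at hlen
          omega
        have := ih _ hcb hlen'
        rw [hdec] at this
        exact this hsp'

/-- If the table check succeeds and the key `k0` of the table decodes to the `3 (T+1)`
smallest items in decreasing order, then no sub-multiset of the items that splits into fitting
triples has more than `3 T` elements. -/
theorem card_le_of_table (L : ℕ) (l : List ℕ) (hs : l.Pairwise (fun x y => x ≤ y)) (T : ℕ)
    (hns : ¬ Splits L (((l.take (3 * (T + 1))).reverse : List ℕ) : Multiset ℕ)) :
    ∀ M : Multiset ℕ, M ≤ (l : Multiset ℕ) → Splits L M → Multiset.card M ≤ 3 * T := by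
  intro M hM hsp
  by_contra hcon
  obtain ⟨k, hk, _⟩ := hsp.card_sum
  have hj : 3 * (T + 1) ≤ Multiset.card M := by omega
  obtain ⟨M1, hM1, hsp1, hc1⟩ := hsp.sub (T + 1) hj
  have hrel := take_rel l hs (3 * (T + 1)) M1 (le_trans hM1 hM) hc1
  have hsp2 := hsp1.mono_rel hrel
  have hsp3 : Splits L (((l.take (3 * (T + 1))).reverse : List ℕ) : Multiset ℕ) := by
    rw [← Multiset.coe_reverse] at hsp2
    exact hsp2
  exact hns hsp3

open Finset in
/-- lower bound for the number of bins of any packing -/
theorem packing_bound_ns (L : ℕ) (s : List ℕ) (T : ℕ) (hL : 0 < L)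
    (hsorted : s.Pairwise (fun x y => x ≤ y)) (hq : ∀ x ∈ s, L < 4 * x)
    (hns : ¬ Splits L (((s.take (3 * (T + 1))).reverse : List ℕ) : Multiset ℕ))
    (B : ℕ) (f : Fin (scaled L s).length → Fin B) (hf : IsPacking (scaled L s) B f) :
    s.length ≤ 2 * B + T := by
  have hn : (scaled L s).length = s.length := by simp [scaled]
  set g : Fin (scaled L s).length → ℕ := fun i => s[i.val]'(hn ▸ i.isLt) with hg
  have hget : ∀ i, (scaled L s).get i = (g i : ℚ) / L := by
    intro i
    show (scaled L s)[i.val] = _
    simp only [scaled, List.getElem_map, hg]
  have hLq : (0 : ℚ) < L := by exact_mod_cast hL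
  have hbound := bins_bound (n := (scaled L s).length) (L := L) g
    (fun i => hq _ (List.getElem_mem _)) T ?_ B f ?_
  · omega
  · intro S hS
    have hle : S.val.map g ≤ (s : Multiset ℕ) := by
      rw [← univ_map_eq s _ hn g (fun i => rfl)]
      exact Multiset.map_le_map (Finset.val_le_iff.mpr (Finset.subset_univ S))
    have := card_le_of_table L s hsorted T hns _ hle hS
    simpa using this
  · intro b
    have h1 := hf b
    simp only [hget] at h1
    rw [← Finset.sum_div, div_le_one hLq] at h1
    exact_mod_cast h1

/-- lower bound for `OPT` when the `3 (T+1)` smallest items do not split into fitting triples -/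
theorem opt_ge_ns (L : ℕ) (s : List ℕ) (T K : ℕ) (hL : 0 < L)
    (hsorted : s.Pairwise (fun x y => x ≤ y)) (hq : ∀ x ∈ s, L < 4 * x) (hle : ∀ x ∈ s, x ≤ L)
    (hns : ¬ Splits L (((s.take (3 * (T + 1))).reverse : List ℕ) : Multiset ℕ))
    (hK : 2 * K + T ≤ s.length + 1) : K ≤ OPT (scaled L s) := by
  have hinst : IsInstance (scaled L s) :=
    scaled_isInstance L s (fun x hx => by have := hq x hx; omega) hle
  have hne : {B : ℕ | ∃ f : Fin (scaled L s).length → Fin B, IsPacking (scaled L s) B f}.Nonempty :=
    ⟨_, packing_exists _ hinst⟩
  obtain ⟨f, hf⟩ := Nat.sInf_mem hne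
  have := packing_bound_ns L s T hL hsorted hq hns _ f hf
  unfold OPT
  omega

/-- Gap certificate: an instance with all sizes in `(L/4, L]`, whose `3 (T+1)` smallest items
do not split into fitting triples, and an explicit fractional solution. -/
theorem gap_certificate_ns (L D : ℕ) (s : List ℕ) (T K : ℕ) (cert : List (List ℕ × ℕ))
    (hL : 0 < L) (hD : 0 < D)
    (hsorted : s.Pairwise (fun x y => x ≤ y)) (hq : ∀ x ∈ s, L < 4 * x) (hle : ∀ x ∈ s, x ≤ L)
    (hns : ¬ Splits L (((s.take (3 * (T + 1))).reverse : List ℕ) : Multiset ℕ))
    (hK : 2 * K + T ≤ s.length + 1) (hcheck : lpCheck L D s cert = true) :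
    IsInstance (scaled L s) ∧
      (K : ℝ) - (((cert.map (fun p => p.2)).sum : ℕ) : ℝ) / D
        ≤ (OPT (scaled L s) : ℝ) - LP (scaled L s) := by
  refine ⟨scaled_isInstance L s (fun x hx => by have := hq x hx; omega) hle, ?_⟩
  have h1 : (K : ℝ) ≤ OPT (scaled L s) := by
    exact_mod_cast opt_ge_ns L s T K hL hsorted hq hle hns hK
  have h2 := lp_le L D hL hD s cert hcheck
  linarith

/-- the table certificate: the root key decodes to `base`, hence `base` does not split -/
theorem not_splits_of_table (L : ℕ) (base : List ℕ) (tree : KTree) (k0 : ℕ)
    (hall : tree.all (checkState L base tree) = true)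
    (hroot : tree.lookup k0 = true) (hdec : decode base k0 = base) :
    ¬ Splits L ((base : List ℕ) : Multiset ℕ) := by
  have := table_sound L base tree hall (decode base k0).length k0 hroot le_rfl
  rw [hdec] at this
  exact this

end Vale.Agent.Lib.P302T
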