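import Mathlib

/-!
# Exact splitting of a multiset of item sizes into fitting triples

`Splits L S` says that the multiset `S` of natural numbers can be partitioned into
triples each of sum at most `L`.  `search L k l` is a complete search procedure for
lists `l` of length `3 * k`.
-/

namespace Vale.Agent.Lib.P302T

/-- `Splits L S`: the multiset `S` is a disjoint union of triples of sum at most `L`. -/
inductive Splits (L : ℕ) : Multiset ℕ → Prop
  | nil : Splits L 0
  | cons (a b c : ℕ) (S : Multiset ℕ) : a + b + c ≤ L → Splits L S →
      Splits L (a ::ₘ b ::ₘ c ::ₘ S)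

/-- largest element of the list that is at most `bound`, if any -/
def pickMax (bound : ℕ) : List ℕ → Option ℕ
  | [] => none
  | y :: l =>
    match pickMax bound l with
    | none => if y ≤ bound then some y else none
    | some z => if y ≤ bound ∧ z < y then some y else some z

theorem pickMax_some {bound : ℕ} : ∀ {l : List ℕ} {z : ℕ}, pickMax bound l = some z →
    z ∈ l ∧ z ≤ bound ∧ ∀ y ∈ l, y ≤ bound → y ≤ z
  | [], z, h => by simp [pickMax] at h
  | y :: l, z, h => by
    unfold pickMax at h
    cases hrec : pickMax bound l with
    | none =>
      rw [hrec] at h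
      have hnone : ∀ w ∈ l, w ≤ bound → False := by
        intro w hw hwb
        have := pickMax_none_aux hrec w hw
        omega
      by_cases hy : y ≤ bound
      · simp only [hy, if_true, Option.some.injEq] at h
        subst h
        refine ⟨List.mem_cons_self, hy, ?_⟩
        intro w hw hwb
        rcases List.mem_cons.mp hw with rfl | hw
        · exact le_rfl
        · exact (hnone w hw hwb).elim
      · simp [hy] at h
    | some z' =>
      rw [hrec] at h
      obtain ⟨hz'mem, hz'b, hz'max⟩ := pickMax_some hrec
      by_cases hy : y ≤ bound ∧ z' < y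
      · simp only [hy, and_self, if_true, Option.some.injEq] at h
        subst h
        refine ⟨List.mem_cons_self, hy.1, ?_⟩
        intro w hw hwb
        rcases List.mem_cons.mp hw with rfl | hw
        · exact le_rfl
        · exact le_trans (hz'max w hw hwb) hy.2.le
      · simp only [hy, if_false, Option.some.injEq] at h
        subst h
        refine ⟨List.mem_cons_of_mem _ hz'mem, hz'b, ?_⟩
        intro w hw hwb
        rcases List.mem_cons.mp hw with rfl | hw
        · rw [not_and, not_lt] at hy
          exact hy hwb
        · exact hz'max w hw hwb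
where
  pickMax_none_aux {bound : ℕ} : ∀ {l : List ℕ}, pickMax bound l = none → ∀ w ∈ l, bound < w
    | [], _, w, hw => by simp at hw
    | y :: l, h, w, hw => by
      unfold pickMax at h
      cases hrec : pickMax bound l with
      | none =>
        rw [hrec] at h
        by_cases hy : y ≤ bound
        · simp [hy] at h
        · rcases List.mem_cons.mp hw with rfl | hw
          · omega
          · exact pickMax_none_aux hrec w hw
      | some z' =>
        rw [hrec] at h
        by_cases hy : y ≤ bound ∧ z' < y
        · simp [hy] at h
        · simp [hy] at h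

theorem pickMax_none {bound : ℕ} {l : List ℕ} (h : pickMax bound l = none) :
    ∀ w ∈ l, bound < w := pickMax_some.pickMax_none_aux h

/-- complete search: can the list (of length `3 * k`) be split into `k` fitting triples? -/
def search (L : ℕ) : ℕ → List ℕ → Bool
  | 0, l => l.isEmpty
  | _ + 1, [] => false
  | k + 1, x :: rest =>
    if (k + 1) * L < (x :: rest).sum then false
    else rest.dedup.any (fun b =>
      if x + b ≤ L then
        match pickMax (L - x - b) (rest.erase b) with
        | none => false
        | some a => if b ≤ a then search L k ((rest.erase b).erase a) else false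
      else false)

end Vale.Agent.Lib.P302T

namespace Vale.Agent.Lib.P302T

theorem Splits.card_sum {L : ℕ} {S : Multiset ℕ} (h : Splits L S) :
    ∃ k, Multiset.card S = 3 * k ∧ S.sum ≤ k * L := by
  induction h with
  | nil => exact ⟨0, by simp, by simp⟩
  | cons a b c S hfit _ ih =>
    obtain ⟨k, hk, hs⟩ := ih
    refine ⟨k + 1, ?_, ?_⟩
    · simp only [Multiset.card_cons, hk]; ring
    · simp only [Multiset.sum_cons]
      nlinarith

theorem Splits.replace {L : ℕ} {S : Multiset ℕ} (h : Splits L S) :
    ∀ {a a' : ℕ}, a' ∈ S → a ≤ a' → Splits L (a ::ₘ S.erase a') := by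
  induction h with
  | nil => intro a a' ha' _; simp at ha'
  | cons p q r S hfit hS ih =>
    intro a a' ha' hle
    by_cases h1 : a' = p
    · subst h1
      rw [Multiset.erase_cons_head]
      exact Splits.cons a q r S (by omega) hS
    by_cases h2 : a' = q
    · subst h2
      rw [Multiset.erase_cons_tail _ (Ne.symm h1), Multiset.erase_cons_head]
      have : a ::ₘ p ::ₘ r ::ₘ S = p ::ₘ a ::ₘ r ::ₘ S := Multiset.cons_swap _ _ _
      rw [this]
      exact Splits.cons p a r S (by omega) hS
    by_cases h3 : a' = r
    · subst h3
      rw [Multiset.erase_cons_tail _ (Ne.symm h1), Multiset.erase_cons_tail _ (Ne.symm h2),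
        Multiset.erase_cons_head]
      have : a ::ₘ p ::ₘ q ::ₘ S = p ::ₘ q ::ₘ a ::ₘ S := by
        rw [Multiset.cons_swap a p, Multiset.cons_swap a q]
      rw [this]
      exact Splits.cons p q a S (by omega) hS
    · have hmem : a' ∈ S := by
        simp only [Multiset.mem_cons] at ha'
        rcases ha' with h | h | h | h
        · exact (h1 h).elim
        · exact (h2 h).elim
        · exact (h3 h).elim
        · exact h
      rw [Multiset.erase_cons_tail _ (Ne.symm h1), Multiset.erase_cons_tail _ (Ne.symm h2),
        Multiset.erase_cons_tail _ (Ne.symm h3)]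
      have : a ::ₘ p ::ₘ q ::ₘ r ::ₘ S.erase a' = p ::ₘ q ::ₘ r ::ₘ a ::ₘ S.erase a' := by
        rw [Multiset.cons_swap a p, Multiset.cons_swap a q, Multiset.cons_swap a r]
      rw [this]
      exact Splits.cons p q r _ hfit (ih hmem hle)

theorem Splits.exists_triple {L : ℕ} {S : Multiset ℕ} (h : Splits L S) :
    ∀ {x : ℕ}, x ∈ S → ∃ b a S', S = x ::ₘ b ::ₘ a ::ₘ S' ∧ x + b + a ≤ L ∧ Splits L S' := by
  induction h with
  | nil => intro x hx; simp at hx
  | cons p q r S hfit hS ih =>
    intro x hx
    simp only [Multiset.mem_cons] at hx
    rcases hx with rfl | rfl | rfl | hx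
    · exact ⟨q, r, S, rfl, hfit, hS⟩
    · exact ⟨p, r, S, Multiset.cons_swap _ _ _, by omega, hS⟩
    · refine ⟨p, q, S, ?_, by omega, hS⟩
      rw [Multiset.cons_swap x p, Multiset.cons_swap x q]
    · obtain ⟨b, a, S', hS', hfit', hsp⟩ := ih hx
      refine ⟨b, a, p ::ₘ q ::ₘ r ::ₘ S', ?_, hfit', Splits.cons p q r S' hfit hsp⟩
      rw [hS']
      rw [Multiset.cons_swap r x, Multiset.cons_swap q x, Multiset.cons_swap p x,
        Multiset.cons_swap r b, Multiset.cons_swap q b, Multiset.cons_swap p b,
        Multiset.cons_swap r a, Multiset.cons_swap q a, Multiset.cons_swap p a]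

theorem search_complete (L : ℕ) : ∀ (k : ℕ) (l : List ℕ), Splits L (l : Multiset ℕ) →
    l.length = 3 * k → search L k l = true := by
  intro k
  induction k with
  | zero =>
    intro l _ hlen
    have : l = [] := List.length_eq_zero_iff.mp (by omega)
    subst this
    rfl
  | succ k ih =>
    intro l hsp hlen
    cases l with
    | nil => simp at hlen
    | cons x rest =>
      unfold search
      obtain ⟨k', hk', hsum⟩ := hsp.card_sum
      have hkk : k' = k + 1 := by
        simp only [Multiset.coe_card] at hk'
        omega
      subst hkk
      have hsum' : ¬ ((k + 1) * L < (x :: rest).sum) := by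
        have : ((x :: rest : List ℕ) : Multiset ℕ).sum = (x :: rest).sum := Multiset.sum_coe _
        omega
      rw [if_neg hsum']
      obtain ⟨b, a, S', hrest, hfit, hsp', hba⟩ : ∃ b a S', (rest : Multiset ℕ) = b ::ₘ a ::ₘ S' ∧
          x + b + a ≤ L ∧ Splits L S' ∧ b ≤ a := by
        obtain ⟨b, a, S', hS', hfit, hsp'⟩ := hsp.exists_triple (x := x) (by simp)
        have hrest : (rest : Multiset ℕ) = b ::ₘ a ::ₘ S' := by
          have h1 : ((x :: rest : List ℕ) : Multiset ℕ) = x ::ₘ (rest : Multiset ℕ) := rfl
          rw [h1] at hS'
          exact (Multiset.cons_inj_right x).mp hS'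
        rcases le_total b a with h | h
        · exact ⟨b, a, S', hrest, hfit, hsp', h⟩
        · exact ⟨a, b, S', by rw [hrest, Multiset.cons_swap], by omega, hsp', h⟩
      have hb : b ∈ rest := by
        have : b ∈ (rest : Multiset ℕ) := by rw [hrest]; simp
        exact Multiset.mem_coe.mp this
      have herase : ((rest.erase b : List ℕ) : Multiset ℕ) = a ::ₘ S' := by
        rw [← Multiset.coe_erase, hrest, Multiset.erase_cons_head]
      have ha : a ∈ rest.erase b := by
        have : a ∈ ((rest.erase b : List ℕ) : Multiset ℕ) := by rw [herase]; simp
        exact Multiset.mem_coe.mp this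
      rw [List.any_eq_true]
      refine ⟨b, List.mem_dedup.mpr hb, ?_⟩
      have hxb : x + b ≤ L := by omega
      rw [if_pos hxb]
      cases hpick : pickMax (L - x - b) (rest.erase b) with
      | none =>
        have := pickMax_none hpick a ha
        omega
      | some a' =>
        obtain ⟨ha'mem, ha'b, ha'max⟩ := pickMax_some hpick
        have haa' : a ≤ a' := ha'max a ha (by omega)
        have hba' : b ≤ a' := le_trans hba haa'
        simp only [hba', if_true]
        apply ih
        · rw [← Multiset.coe_erase, herase]
          by_cases heq : a' = a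
          · subst heq
            rw [Multiset.erase_cons_head]
            exact hsp'
          · have ha'S : a' ∈ S' := by
              have : a' ∈ ((rest.erase b : List ℕ) : Multiset ℕ) := Multiset.mem_coe.mpr ha'mem
              rw [herase, Multiset.mem_cons] at this
              rcases this with h | h
              · exact (heq h).elim
              · exact h
            rw [Multiset.erase_cons_tail _ (Ne.symm heq)]
            exact hsp'.replace ha'S haa'
        · rw [List.length_erase_of_mem ha'mem, List.length_erase_of_mem hb]
          simp only [List.length_cons] at hlen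
          omega

end Vale.Agent.Lib.P302T
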