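import Vale.Agent.Lib.P302T.Dominance

/-!
# Splitting a multiset of item sizes into light groups of at most three items

`Splits3 L2 S` says that the multiset `S` can be partitioned into groups of at most three
elements such that a group of `j` elements has sum at most `j * L2`.  `search3` is a complete
search procedure for this property.
-/

namespace Vale.Agent.Lib.P302T

/-- `Splits3 L2 S`: the multiset `S` is a disjoint union of groups of at most three elements,
a group of `j` elements having sum at most `j * L2`. -/
inductive Splits3 (L2 : ℕ) : Multiset ℕ → Prop
  | nil : Splits3 L2 0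
  | add (g S : Multiset ℕ) : Multiset.card g ≤ 3 → g.sum ≤ Multiset.card g * L2 →
      Splits3 L2 S → Splits3 L2 (g + S)

theorem Splits3.card_sum {L2 : ℕ} {S : Multiset ℕ} (h : Splits3 L2 S) :
    S.sum ≤ Multiset.card S * L2 := by
  induction h with
  | nil => simp
  | add g S _ hsum _ ih =>
    rw [Multiset.sum_add, Multiset.card_add, add_mul]
    omega

theorem Splits3.exists_group {L2 : ℕ} {S : Multiset ℕ} (h : Splits3 L2 S) :
    ∀ {x : ℕ}, x ∈ S → ∃ g S', S = g + S' ∧ x ∈ g ∧ Multiset.card g ≤ 3 ∧
      g.sum ≤ Multiset.card g * L2 ∧ Splits3 L2 S' := by
  induction h with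
  | nil => intro x hx; simp at hx
  | add g S hcard hsum hS ih =>
    intro x hx
    rw [Multiset.mem_add] at hx
    rcases hx with hx | hx
    · exact ⟨g, S, rfl, hx, hcard, hsum, hS⟩
    · obtain ⟨g', S', hS', hxg', hcard', hsum', hsp'⟩ := ih hx
      refine ⟨g', g + S', ?_, hxg', hcard', hsum', Splits3.add g S' hcard hsum hsp'⟩
      rw [hS', add_left_comm]

theorem Splits3.replace {L2 : ℕ} {S : Multiset ℕ} (h : Splits3 L2 S) :
    ∀ {a a' : ℕ}, a' ∈ S → a ≤ a' → Splits3 L2 (a ::ₘ S.erase a') := by
  induction h with
  | nil => intro a a' ha' _; simp at ha'
  | add g S hcard hsum hS ih =>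
    intro a a' ha' hle
    by_cases hg : a' ∈ g
    · rw [Multiset.erase_add_left_pos _ hg, ← Multiset.cons_add]
      have hpos : 0 < Multiset.card g := Multiset.card_pos_iff_exists_mem.mpr ⟨a', hg⟩
      obtain ⟨k, hk⟩ : ∃ k, Multiset.card g = k + 1 := ⟨Multiset.card g - 1, by omega⟩
      have h2 : Multiset.card (a ::ₘ g.erase a') = Multiset.card g := by
        rw [Multiset.card_cons, Multiset.card_erase_of_mem hg, hk]
        rfl
      have h1 : g.sum = a' + (g.erase a').sum := by
        rw [← Multiset.sum_cons, Multiset.cons_erase hg]
      refine Splits3.add _ S ?_ ?_ hS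
      · rw [h2]; exact hcard
      · rw [h2, Multiset.sum_cons]
        omega
    · have hS' : a' ∈ S := by
        rw [Multiset.mem_add] at ha'
        exact ha'.resolve_left hg
      rw [Multiset.erase_add_right_neg _ hg, ← Multiset.add_cons]
      exact Splits3.add g _ hcard hsum (ih hS' hle)

theorem Splits3.erase_ge {L2 : ℕ} {S : Multiset ℕ} (h : Splits3 L2 S) :
    ∀ {a : ℕ}, a ∈ S → L2 ≤ a → Splits3 L2 (S.erase a) := by
  induction h with
  | nil => intro a ha _; simp at ha
  | add g S hcard hsum hS ih =>
    intro a ha hle
    by_cases hg : a ∈ g
    · rw [Multiset.erase_add_left_pos _ hg]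
      have hpos : 0 < Multiset.card g := Multiset.card_pos_iff_exists_mem.mpr ⟨a, hg⟩
      obtain ⟨k, hk⟩ : ∃ k, Multiset.card g = k + 1 := ⟨Multiset.card g - 1, by omega⟩
      have h2 : Multiset.card (g.erase a) = k := by
        rw [Multiset.card_erase_of_mem hg, hk]
        rfl
      have h1 : g.sum = a + (g.erase a).sum := by
        rw [← Multiset.sum_cons, Multiset.cons_erase hg]
      refine Splits3.add _ S ?_ ?_ hS
      · rw [h2]; omega
      · rw [h2]
        rw [hk, add_mul] at hsum
        omega
    · have hS' : a ∈ S := by
        rw [Multiset.mem_add] at ha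
        exact ha.resolve_left hg
      rw [Multiset.erase_add_right_neg _ hg]
      exact Splits3.add g _ hcard hsum (ih hS' hle)

theorem Splits3.mono_rel {L2 : ℕ} {M : Multiset ℕ} (h : Splits3 L2 M) :
    ∀ {A : Multiset ℕ}, Multiset.Rel (fun x y => x ≤ y) A M → Splits3 L2 A := by
  induction h with
  | nil =>
    intro A hA
    rw [Multiset.rel_zero_right] at hA
    subst hA
    exact Splits3.nil
  | add g S hcard hsum _ ih =>
    intro A hA
    obtain ⟨A1, A2, hA1, hA2, rfl⟩ := Multiset.rel_add_right.mp hA
    refine Splits3.add A1 A2 ?_ ?_ (ih hA2)
    · rw [Multiset.card_eq_card_of_rel hA1]; exact hcard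
    · rw [Multiset.card_eq_card_of_rel hA1]
      exact le_trans (Multiset.sum_le_sum_of_rel_le hA1) hsum

theorem Splits3.exists_erase {L2 : ℕ} {S : Multiset ℕ} (h : Splits3 L2 S) :
    S ≠ 0 → ∃ x ∈ S, Splits3 L2 (S.erase x) := by
  induction h with
  | nil => intro h0; exact (h0 rfl).elim
  | add g S hcard hsum hS ih =>
    intro hne
    by_cases hg0 : g = 0
    · subst hg0
      rw [zero_add] at hne ⊢
      exact ih hne
    · by_cases hbig : ∃ x ∈ g, L2 ≤ x
      · obtain ⟨x, hx, hxL⟩ := hbig
        exact ⟨x, Multiset.mem_add.mpr (Or.inl hx),
          (Splits3.add g S hcard hsum hS).erase_ge (Multiset.mem_add.mpr (Or.inl hx)) hxL⟩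
      · obtain ⟨x, hx⟩ := Multiset.exists_mem_of_ne_zero hg0
        refine ⟨x, Multiset.mem_add.mpr (Or.inl hx), ?_⟩
        rw [Multiset.erase_add_left_pos _ hx]
        refine Splits3.add _ S ?_ ?_ hS
        · exact le_trans (Multiset.card_le_card (Multiset.erase_le x g)) hcard
        · have hall : ∀ y ∈ g.erase x, y ≤ L2 := by
            intro y hy
            have hyg : y ∈ g := Multiset.mem_of_mem_erase hy
            by_contra hcon
            exact hbig ⟨y, hyg, by omega⟩
          have := Multiset.sum_le_card_nsmul (g.erase x) L2 hall
          simpa using this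

theorem Splits3.sub {L2 : ℕ} : ∀ (d : ℕ) {M : Multiset ℕ}, Splits3 L2 M → ∀ j,
    j + d = Multiset.card M → ∃ M1, M1 ≤ M ∧ Splits3 L2 M1 ∧ Multiset.card M1 = j
  | 0, M, h, j, hj => ⟨M, le_rfl, h, by omega⟩
  | d + 1, M, h, j, hj => by
    have hne : M ≠ 0 := by
      intro h0
      rw [h0] at hj
      simp at hj
    obtain ⟨x, hx, hsp⟩ := h.exists_erase hne
    have hc : j + d = Multiset.card (M.erase x) := by
      rw [Multiset.card_erase_of_mem hx]
      simp only [Nat.pred_eq_sub_one]
      omega
    obtain ⟨M1, hM1, hsp1, hc1⟩ := Splits3.sub d hsp j hc
    exact ⟨M1, le_trans hM1 (Multiset.erase_le x M), hsp1, hc1⟩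

/-- complete search: can the list be split into light groups of at most three elements?
The first argument bounds the recursion depth. -/
def search3 (L2 : ℕ) : ℕ → List ℕ → Bool
  | _, [] => true
  | 0, _ :: _ => false
  | f + 1, x :: rest =>
    if x ≤ L2 then true
    else if (rest.length + 1) * L2 < x + rest.sum then false
    else rest.dedup.any (fun b =>
      if x + b ≤ 2 * L2 then
        match pickMax (3 * L2 - x - b) (rest.erase b) with
        | some a =>
          if L2 < a then search3 L2 f ((rest.erase b).erase a) else search3 L2 f (rest.erase b)
        | none => search3 L2 f (rest.erase b)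
      else if x + b ≤ 3 * L2 then
        match pickMax (3 * L2 - x - b) (rest.erase b) with
        | some a => if b ≤ a then search3 L2 f ((rest.erase b).erase a) else false
        | none => false
      else false)

theorem search3_complete (L2 : ℕ) : ∀ (f : ℕ) (l : List ℕ), Splits3 L2 (l : Multiset ℕ) →
    l.length ≤ f → search3 L2 f l = true := by
  intro f
  induction f with
  | zero =>
    intro l _ hlen
    have : l = [] := List.length_eq_zero_iff.mp (by omega)
    subst this
    rfl
  | succ f ih =>
    intro l hsp hlen
    cases l with
    | nil => rfl
    | cons x rest =>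
      unfold search3
      by_cases hx : x ≤ L2
      · rw [if_pos hx]
      rw [if_neg hx]
      have hsum := hsp.card_sum
      have hsum' : ¬ ((rest.length + 1) * L2 < x + rest.sum) := by
        have h1 : ((x :: rest : List ℕ) : Multiset ℕ).sum = x + rest.sum := by
          rw [Multiset.sum_coe, List.sum_cons]
        have h2 : Multiset.card ((x :: rest : List ℕ) : Multiset ℕ) = rest.length + 1 := by
          simp
        rw [h1, h2] at hsum
        omega
      rw [if_neg hsum']
      obtain ⟨g, S', hS', hxg, hcard, hgsum, hsp'⟩ := hsp.exists_group (x := x) (by simp)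
      have hg : g = x ::ₘ g.erase x := (Multiset.cons_erase hxg).symm
      have hrest : (rest : Multiset ℕ) = g.erase x + S' := by
        have h1 : ((x :: rest : List ℕ) : Multiset ℕ) = x ::ₘ (rest : Multiset ℕ) := rfl
        rw [h1, hg, Multiset.cons_add] at hS'
        exact (Multiset.cons_inj_right x).mp hS'
      have hcard' : Multiset.card (g.erase x) + 1 = Multiset.card g := by
        rw [Multiset.card_erase_of_mem hxg]
        have : 0 < Multiset.card g := Multiset.card_pos_iff_exists_mem.mpr ⟨x, hxg⟩
        simp only [Nat.pred_eq_sub_one]
        omega
      have hgsum' : x + (g.erase x).sum ≤ (Multiset.card (g.erase x) + 1) * L2 := by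
        rw [hcard', ← Multiset.sum_cons, ← hg]
        exact hgsum
      have hlen' : rest.length ≤ f := by
        simp only [List.length_cons] at hlen
        omega
      generalize g.erase x = g' at hrest hcard' hgsum'
      have hc2 : Multiset.card g' ≤ 2 := by omega
      rw [List.any_eq_true]
      have hc3 : Multiset.card g' = 0 ∨ Multiset.card g' = 1 ∨ Multiset.card g' = 2 := by omega
      rcases hc3 with h0 | h1 | h2
      · rw [Multiset.card_eq_zero] at h0
        subst h0
        simp at hgsum'
        omega
      · obtain ⟨b, rfl⟩ := Multiset.card_eq_one.mp h1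
        have hb : b ∈ rest := by
          have : b ∈ (rest : Multiset ℕ) := by rw [hrest]; simp
          exact Multiset.mem_coe.mp this
        have herase : ((rest.erase b : List ℕ) : Multiset ℕ) = S' := by
          rw [← Multiset.coe_erase, hrest]
          simp
        have hlenb : (rest.erase b).length ≤ f := by
          rw [List.length_erase_of_mem hb]; omega
        refine ⟨b, List.mem_dedup.mpr hb, ?_⟩
        have hxb : x + b ≤ 2 * L2 := by
          simp only [Multiset.sum_singleton, Multiset.card_singleton] at hgsum'
          omega
        rw [if_pos hxb]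
        cases hpick : pickMax (3 * L2 - x - b) (rest.erase b) with
        | none =>
          exact ih _ (by rw [herase]; exact hsp') hlenb
        | some a =>
          obtain ⟨hamem, _, _⟩ := pickMax_some hpick
          by_cases ha : L2 < a
          · simp only [ha, if_true]
            apply ih
            · rw [← Multiset.coe_erase, herase]
              have haS : a ∈ S' := by
                rw [← herase]; exact Multiset.mem_coe.mpr hamem
              exact hsp'.erase_ge haS ha.le
            · rw [List.length_erase_of_mem hamem]; omega
          · simp only [ha, if_false]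
            exact ih _ (by rw [herase]; exact hsp') hlenb
      · obtain ⟨b, c, hg', hbc⟩ : ∃ b c, g' = {b, c} ∧ b ≤ c := by
          obtain ⟨b, c, rfl⟩ := Multiset.card_eq_two.mp h2
          rcases le_total b c with h | h
          · exact ⟨b, c, rfl, h⟩
          · exact ⟨c, b, Multiset.pair_comm b c, h⟩
        subst hg'
        have hrest' : (rest : Multiset ℕ) = b ::ₘ c ::ₘ S' := by
          rw [hrest, Multiset.insert_eq_cons, Multiset.cons_add, Multiset.singleton_add]
        have hb : b ∈ rest := by
          have : b ∈ (rest : Multiset ℕ) := by rw [hrest']; simp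
          exact Multiset.mem_coe.mp this
        have herase : ((rest.erase b : List ℕ) : Multiset ℕ) = c ::ₘ S' := by
          rw [← Multiset.coe_erase, hrest', Multiset.erase_cons_head]
        have hc : c ∈ rest.erase b := by
          have : c ∈ ((rest.erase b : List ℕ) : Multiset ℕ) := by rw [herase]; simp
          exact Multiset.mem_coe.mp this
        have hlenb : (rest.erase b).length ≤ f := by
          rw [List.length_erase_of_mem hb]; omega
        have hxbc : x + b + c ≤ 3 * L2 := by
          have : ({b, c} : Multiset ℕ).sum = b + c := by
            rw [Multiset.insert_eq_cons, Multiset.sum_cons, Multiset.sum_singleton]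
          rw [this, h2] at hgsum'
          omega
        refine ⟨b, List.mem_dedup.mpr hb, ?_⟩
        -- the recursive call after removing the best third element
        have hthird : ∀ a, a ∈ rest.erase b → c ≤ a →
            search3 L2 f ((rest.erase b).erase a) = true := by
          intro a hamem hca
          apply ih
          · rw [← Multiset.coe_erase, herase]
            by_cases heq : a = c
            · subst heq
              rw [Multiset.erase_cons_head]
              exact hsp'
            · have haS : a ∈ S' := by
                have : a ∈ ((rest.erase b : List ℕ) : Multiset ℕ) := Multiset.mem_coe.mpr hamem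
                rw [herase, Multiset.mem_cons] at this
                rcases this with h | h
                · exact (heq h).elim
                · exact h
              rw [Multiset.erase_cons_tail _ (Ne.symm heq)]
              exact hsp'.replace haS hca
          · rw [List.length_erase_of_mem hamem]; omega
        by_cases hxb : x + b ≤ 2 * L2
        · rw [if_pos hxb]
          cases hpick : pickMax (3 * L2 - x - b) (rest.erase b) with
          | none =>
            have := pickMax_none hpick c hc
            omega
          | some a =>
            obtain ⟨hamem, _, hamax⟩ := pickMax_some hpick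
            have hca : c ≤ a := hamax c hc (by omega)
            by_cases ha : L2 < a
            · simp only [ha, if_true]
              exact hthird a hamem hca
            · simp only [ha, if_false]
              apply ih _ _ hlenb
              rw [herase]
              have : c ::ₘ S' = ({c} : Multiset ℕ) + S' := by simp
              rw [this]
              exact Splits3.add {c} S' (by simp) (by simp; omega) hsp'
        · rw [if_neg hxb]
          have hxb3 : x + b ≤ 3 * L2 := by omega
          rw [if_pos hxb3]
          cases hpick : pickMax (3 * L2 - x - b) (rest.erase b) with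
          | none =>
            have := pickMax_none hpick c hc
            omega
          | some a =>
            obtain ⟨hamem, _, hamax⟩ := pickMax_some hpick
            have hca : c ≤ a := hamax c hc (by omega)
            have hba : b ≤ a := le_trans hbc hca
            simp only [hba, if_true]
            exact hthird a hamem hca

/-- If the complete search fails on the `j` smallest items, then no sub-multiset of the items
that splits into light groups has `j` or more elements. -/
theorem card_lt_of_search3 (L2 : ℕ) (l : List ℕ) (hs : l.Pairwise (fun x y => x ≤ y)) (j : ℕ)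
    (hsearch : search3 L2 j (l.take j).reverse = false) :
    ∀ M : Multiset ℕ, M ≤ (l : Multiset ℕ) → Splits3 L2 M → Multiset.card M < j := by
  intro M hM hsp
  by_contra hcon
  have hj : j ≤ Multiset.card M := by omega
  obtain ⟨M1, hM1, hsp1, hc1⟩ := Splits3.sub (Multiset.card M - j) hsp j (by omega)
  have hrel := take_rel l hs j M1 (le_trans hM1 hM) hc1
  have hsp2 := hsp1.mono_rel hrel
  have hsp3 : Splits3 L2 (((l.take j).reverse : List ℕ) : Multiset ℕ) := by
    rw [← Multiset.coe_reverse] at hsp2
    exact hsp2
  have hlen : (l.take j).reverse.length ≤ j := by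
    simp only [List.length_reverse, List.length_take]
    omega
  have := search3_complete L2 j _ hsp3 hlen
  rw [hsearch] at this
  exact Bool.false_ne_true this

end Vale.Agent.Lib.P302T
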